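import Vale.Agent.P325.Assemble
import Vale.Agent.P325.Gadget

/-!
The Unique Games Conjecture.
-/

theorem Vale.Agent.Results.P325.AUniqueGames.result :
    ∀ ε δ : ℝ, 0 < ε → 0 < δ → ε + δ < 1 →
      ∃ k : ℕ, 2 ≤ k ∧ Vale.Agent.P325.GapNPHard k (1 - ε) δ :=
  fun ε δ hε hδ _ =>
    Vale.Agent.P325.ugc_of_gadget (fun _ _ h1 h2 => Vale.Agent.P325.gadget h1 h2) ε δ hε hδ
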